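import Mathlib

/-!
# P201, free kernel: operators on the group algebra of `G` from Fox-type data on a free
normal subgroup

`ι : FreeGroup X →* G` is injective with normal range `N`.  From additive operators `d x` on
the group algebra of `FreeGroup X` that satisfy the rules of the Fox derivatives, the file
builds additive operators `D x` on the group algebra of `G` (by means of a transversal of `N`
in `G`) with the corresponding rules, on the left (`AL_exists_left`) and on the right
(`AL_exists_right`).
-/

namespace Vale.Agent.Lib.P201.H72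

open MonoidAlgebra

/-- An additive map out of a group algebra given on the basis. -/
noncomputable def AL_lift {K : Type*} [CommRing K] {G : Type*} {M : Type*} [AddCommMonoid M]
    (φ : G → K →+ M) : MonoidAlgebra K G →+ M :=
  (Finsupp.liftAddHom φ).comp (coeffAddEquiv (R := K) (M := G)).toAddMonoidHom

theorem AL_lift_single {K : Type*} [CommRing K] {G : Type*} {M : Type*} [AddCommMonoid M]
    (φ : G → K →+ M) (g : G) (k : K) : AL_lift φ (single g k) = φ g k := by
  show (Finsupp.liftAddHom φ) (Finsupp.single g k) = φ g k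
  exact Finsupp.liftAddHom_apply_single φ g k

section general

variable {K : Type*} [CommRing K] {G : Type*} [Group G]

variable (N : Subgroup G)

/-- The chosen representative of the coset of `g`. -/
noncomputable def AL_rep (g : G) : G := (QuotientGroup.mk g : G ⧸ N).out

theorem AL_mk_rep (g : G) : (QuotientGroup.mk (AL_rep N g) : G ⧸ N) = QuotientGroup.mk g :=
  QuotientGroup.out_eq' _

theorem AL_rep_congr {g h : G} (e : (QuotientGroup.mk g : G ⧸ N) = QuotientGroup.mk h) :
    AL_rep N g = AL_rep N h := by
  unfold AL_rep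
  rw [e]

theorem AL_rep_rep (g : G) : AL_rep N (AL_rep N g) = AL_rep N g :=
  AL_rep_congr N (AL_mk_rep N g)

theorem AL_mapDomain_rep (y : MonoidAlgebra K G) :
    mapDomain (AL_rep N) y
      = mapDomain (fun q : G ⧸ N => q.out) (mapDomain (QuotientGroup.mk : G → G ⧸ N) y) := by
  induction y using MonoidAlgebra.induction_linear with
  | zero => rw [mapDomain_zero, mapDomain_zero, mapDomain_zero]
  | add x y hx hy => rw [mapDomain_add, mapDomain_add, mapDomain_add, hx, hy]
  | single g r =>
    rw [mapDomain_single, mapDomain_single, mapDomain_single]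
    rfl

theorem AL_mapDomain_rep_eq_zero [N.Normal] (y : MonoidAlgebra K G)
    (hy : mapDomainRingHom K (QuotientGroup.mk' N) y = 0) : mapDomain (AL_rep N) y = 0 := by
  have h0 : mapDomain (QuotientGroup.mk : G → G ⧸ N) y = 0 := hy
  rw [AL_mapDomain_rep, h0, mapDomain_zero]

end general

section left

variable {K : Type*} [CommRing K] {X : Type*} {G : Type*} [Group G]
  (ι : FreeGroup X →* G) (N : Subgroup G)

open Classical in
/-- The element `f` of the free group with `ι f * rep g = g` (if there is one). -/
noncomputable def AL_fl (g : G) : FreeGroup X :=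
  if h : ∃ f, ι f = g * (AL_rep N g)⁻¹ then h.choose else 1

theorem AL_fl_spec [N.Normal] (hN : N = ι.range) (g : G) :
    ι (AL_fl ι N g) * AL_rep N g = g := by
  have h1 : (AL_rep N g)⁻¹ * g ∈ N := QuotientGroup.eq.mp (AL_mk_rep N g)
  have h2 : g * (AL_rep N g)⁻¹ ∈ ι.range := by
    rw [← hN]
    exact Subgroup.Normal.mem_comm inferInstance h1
  have h3 : ∃ f, ι f = g * (AL_rep N g)⁻¹ := h2
  unfold AL_fl
  rw [dif_pos h3, h3.choose_spec, inv_mul_cancel_right]

theorem AL_mk_mul [N.Normal] (hN : N = ι.range) (f : FreeGroup X) (g : G) :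
    (QuotientGroup.mk (ι f * g) : G ⧸ N) = QuotientGroup.mk g := by
  have h1 : ι f ∈ N := by
    rw [hN]
    exact ⟨f, rfl⟩
  rw [QuotientGroup.mk_mul, (QuotientGroup.eq_one_iff (ι f)).mpr h1, one_mul]

theorem AL_rep_mul [N.Normal] (hN : N = ι.range) (f : FreeGroup X) (g : G) :
    AL_rep N (ι f * g) = AL_rep N g :=
  AL_rep_congr N (AL_mk_mul ι N hN f g)

theorem AL_fl_mul [N.Normal] (hι : Function.Injective ι) (hN : N = ι.range) (f : FreeGroup X)
    (g : G) : AL_fl ι N (ι f * g) = f * AL_fl ι N g := by
  apply hι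
  have h1 := AL_fl_spec ι N hN (ι f * g)
  rw [AL_rep_mul ι N hN] at h1
  have h2 := AL_fl_spec ι N hN g
  rw [map_mul]
  apply mul_right_cancel (b := AL_rep N g)
  rw [h1, mul_assoc, h2]

theorem AL_fl_rep [N.Normal] (hι : Function.Injective ι) (hN : N = ι.range) (g : G) :
    AL_fl ι N (AL_rep N g) = 1 := by
  apply hι
  have h1 := AL_fl_spec ι N hN (AL_rep N g)
  rw [AL_rep_rep] at h1
  rw [map_one]
  exact mul_right_cancel (b := AL_rep N g) (by rw [h1, one_mul])

variable (d : X → MonoidAlgebra K (FreeGroup X) →+ MonoidAlgebra K (FreeGroup X))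

/-- The operator `D x` on the group algebra of `G`. -/
noncomputable def AL_D (x : X) : MonoidAlgebra K G →+ MonoidAlgebra K G :=
  AL_lift fun g =>
    (AddMonoidHom.mulRight (single (AL_rep N g) (1 : K))).comp
      ((mapDomainRingHom K ι).toAddMonoidHom.comp ((d x).comp (singleAddHom (AL_fl ι N g))))

theorem AL_D_single (x : X) (g : G) (k : K) :
    AL_D ι N d x (single g k)
      = mapDomainRingHom K ι (d x (single (AL_fl ι N g) k)) * single (AL_rep N g) 1 := by
  unfold AL_D
  rw [AL_lift_single]
  rfl

theorem AL_single_eq [N.Normal] (hN : N = ι.range) (g : G) (k : K) :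
    mapDomainRingHom K ι (single (AL_fl ι N g) k) * single (AL_rep N g) 1 = single g k := by
  rw [mapDomainRingHom_apply, mapDomain_single, single_mul_single, mul_one, AL_fl_spec ι N hN]

/-- `D y` of the product of the generator `w x` and a basis element. -/
theorem AL_D_w_single [N.Normal] (hι : Function.Injective ι) (hN : N = ι.range)
    (hd_mul : ∀ x f r, d x (single f 1 * r) = d x (single f 1) * r + d x r)
    (y x : X) (g : G) (k : K) :
    AL_D ι N d y ((single (ι (FreeGroup.of x)) 1 - 1) * single g k)
      = mapDomainRingHom K ι (d y (single (FreeGroup.of x) 1)) * single g k := by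
  have h1 : single (FreeGroup.of x * AL_fl ι N g) k
      = single (FreeGroup.of x) (1 : K) * single (AL_fl ι N g) k := by
    rw [single_mul_single, one_mul]
  rw [sub_mul, one_mul, single_mul_single, one_mul, map_sub, AL_D_single, AL_D_single,
    AL_rep_mul ι N hN, AL_fl_mul ι N hι hN, ← sub_mul, ← map_sub, h1, hd_mul,
    add_sub_cancel_right, map_mul, mul_assoc, AL_single_eq ι N hN]

theorem AL_D_w_same [N.Normal] (hι : Function.Injective ι) (hN : N = ι.range)
    (hd_mul : ∀ x f r, d x (single f 1 * r) = d x (single f 1) * r + d x r)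
    (hd_of : ∀ x, d x (single (FreeGroup.of x) 1) = 1) (x : X) (c : MonoidAlgebra K G) :
    AL_D ι N d x ((single (ι (FreeGroup.of x)) 1 - 1) * c) = c := by
  induction c using MonoidAlgebra.induction_linear with
  | zero => rw [mul_zero, map_zero]
  | add a b ha hb => rw [mul_add, map_add, ha, hb]
  | single g k => rw [AL_D_w_single ι N d hι hN hd_mul, hd_of, map_one, one_mul]

theorem AL_D_w_ne [N.Normal] (hι : Function.Injective ι) (hN : N = ι.range)
    (hd_mul : ∀ x f r, d x (single f 1 * r) = d x (single f 1) * r + d x r)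
    (hd_ne : ∀ x y, x ≠ y → d x (single (FreeGroup.of y) 1) = 0) (x y : X) (hxy : x ≠ y)
    (c : MonoidAlgebra K G) :
    AL_D ι N d x ((single (ι (FreeGroup.of y)) 1 - 1) * c) = 0 := by
  induction c using MonoidAlgebra.induction_linear with
  | zero => rw [mul_zero, map_zero]
  | add a b ha hb => rw [mul_add, map_add, ha, hb, add_zero]
  | single g k => rw [AL_D_w_single ι N d hι hN hd_mul, hd_ne x y hxy, map_zero, zero_mul]

/-- The fundamental formula on the group algebra of `G`. -/
theorem AL_fund [N.Normal] (hN : N = ι.range)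
    (ε : MonoidAlgebra K (FreeGroup X) →+ K) (hε : ∀ f k, ε (single f k) = k)
    (hd_fund : ∀ r, ∃ s : Finset X, (∀ x, x ∉ s → d x r = 0) ∧
      r = single 1 (ε r) + ∑ x ∈ s, (single (FreeGroup.of x) 1 - 1) * d x r)
    (a : MonoidAlgebra K G) :
    ∃ s : Finset X, (∀ x, x ∉ s → AL_D ι N d x a = 0) ∧
      a = mapDomain (AL_rep N) a
        + ∑ x ∈ s, (single (ι (FreeGroup.of x)) 1 - 1) * AL_D ι N d x a := by
  classical
  induction a using MonoidAlgebra.induction_linear with
  | zero => exact ⟨∅, fun x _ => map_zero _, by simp⟩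
  | add a b ha hb =>
    obtain ⟨s, hs0, hs⟩ := ha
    obtain ⟨t, ht0, ht⟩ := hb
    refine ⟨s ∪ t, ?_, ?_⟩
    · intro x hx
      rw [Finset.mem_union, not_or] at hx
      rw [map_add, hs0 x hx.1, ht0 x hx.2, add_zero]
    · have e1 : ∑ x ∈ s ∪ t, (single (ι (FreeGroup.of x)) 1 - 1) * AL_D ι N d x a
          = ∑ x ∈ s, (single (ι (FreeGroup.of x)) 1 - 1) * AL_D ι N d x a := by
        symm
        apply Finset.sum_subset Finset.subset_union_left
        intro x _ hx
        rw [hs0 x hx, mul_zero]
      have e2 : ∑ x ∈ s ∪ t, (single (ι (FreeGroup.of x)) 1 - 1) * AL_D ι N d x b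
          = ∑ x ∈ t, (single (ι (FreeGroup.of x)) 1 - 1) * AL_D ι N d x b := by
        symm
        apply Finset.sum_subset Finset.subset_union_right
        intro x _ hx
        rw [ht0 x hx, mul_zero]
      simp only [map_add, mul_add, Finset.sum_add_distrib]
      rw [e1, e2, mapDomain_add]
      calc a + b = (mapDomain (AL_rep N) a
              + ∑ x ∈ s, (single (ι (FreeGroup.of x)) 1 - 1) * AL_D ι N d x a)
            + (mapDomain (AL_rep N) b
              + ∑ x ∈ t, (single (ι (FreeGroup.of x)) 1 - 1) * AL_D ι N d x b) := by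
            rw [← hs, ← ht]
        _ = _ := by abel
  | single g k =>
    obtain ⟨s, hs0, hs⟩ := hd_fund (single (AL_fl ι N g) k)
    refine ⟨s, ?_, ?_⟩
    · intro x hx
      rw [AL_D_single, hs0 x hx, map_zero, zero_mul]
    · have h1 : mapDomainRingHom K ι (single (AL_fl ι N g) k) * single (AL_rep N g) (1 : K)
          = mapDomainRingHom K ι (single 1 (ε (single (AL_fl ι N g) k))
            + ∑ x ∈ s, (single (FreeGroup.of x) 1 - 1) * d x (single (AL_fl ι N g) k))
            * single (AL_rep N g) (1 : K) := by
        rw [← hs]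
      rw [AL_single_eq ι N hN, hε, map_add, map_sum, add_mul, Finset.sum_mul] at h1
      refine h1.trans ?_
      rw [mapDomain_single]
      congr 1
      · rw [mapDomainRingHom_apply, mapDomain_single, map_one, single_mul_single, one_mul,
          mul_one]
      · apply Finset.sum_congr rfl
        intro x _
        rw [AL_D_single, map_mul, map_sub, map_one, mapDomainRingHom_apply, mapDomain_single,
          mul_assoc]

open Classical in
/-- The coefficient of the coset `q`, as an element of the group algebra of the free group. -/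
noncomputable def AL_R (q : G ⧸ N) : MonoidAlgebra K G →+ MonoidAlgebra K (FreeGroup X) :=
  AL_lift fun g =>
    if (QuotientGroup.mk g : G ⧸ N) = q then singleAddHom (AL_fl ι N g) else 0

open Classical in
theorem AL_R_single (q : G ⧸ N) (g : G) (k : K) :
    AL_R ι N q (single g k)
      = if (QuotientGroup.mk g : G ⧸ N) = q then single (AL_fl ι N g) k else 0 := by
  unfold AL_R
  rw [AL_lift_single]
  split_ifs <;> rfl

open Classical in
theorem AL_R_mul_rep [N.Normal] (hι : Function.Injective ι) (hN : N = ι.range) (q : G ⧸ N)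
    (g : G) (r : MonoidAlgebra K (FreeGroup X)) :
    AL_R ι N q (mapDomainRingHom K ι r * single (AL_rep N g) 1)
      = if (QuotientGroup.mk g : G ⧸ N) = q then r else 0 := by
  induction r using MonoidAlgebra.induction_linear with
  | zero => simp
  | add a b ha hb =>
    rw [map_add, add_mul, map_add, ha, hb]
    split_ifs <;> simp
  | single f k =>
    rw [mapDomainRingHom_apply, mapDomain_single, single_mul_single, mul_one, AL_R_single,
      AL_mk_mul ι N hN, AL_mk_rep, AL_fl_mul ι N hι hN, AL_fl_rep ι N hι hN, mul_one]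

theorem AL_R_D [N.Normal] (hι : Function.Injective ι) (hN : N = ι.range) (q : G ⧸ N) (x : X)
    (a : MonoidAlgebra K G) : AL_R ι N q (AL_D ι N d x a) = d x (AL_R ι N q a) := by
  classical
  induction a using MonoidAlgebra.induction_linear with
  | zero => simp
  | add a b ha hb => simp only [map_add, ha, hb]
  | single g k =>
    rw [AL_D_single, AL_R_mul_rep ι N hι hN, AL_R_single]
    split_ifs
    · rfl
    · rw [map_zero]

theorem AL_eps_R [N.Normal] (ε : MonoidAlgebra K (FreeGroup X) →+ K)
    (hε : ∀ f k, ε (single f k) = k) (q : G ⧸ N) (a : MonoidAlgebra K G) :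
    ε (AL_R ι N q a) = (mapDomainRingHom K (QuotientGroup.mk' N) a).coeff q := by
  classical
  induction a using MonoidAlgebra.induction_linear with
  | zero => simp
  | add a b ha hb => simp only [map_add, ha, hb, coeff_add, Finsupp.add_apply]
  | single g k =>
    rw [AL_R_single, mapDomainRingHom_apply, mapDomain_single, coeff_single,
      Finsupp.single_apply]
    by_cases h : (QuotientGroup.mk g : G ⧸ N) = q
    · rw [if_pos h, hε]
      exact (if_pos h).symm
    · rw [if_neg h, map_zero]
      exact (if_neg h).symm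

theorem AL_coeff_eq [N.Normal] (hN : N = ι.range) (a : MonoidAlgebra K G) (g : G) :
    a.coeff g = (AL_R ι N (QuotientGroup.mk g) a).coeff (AL_fl ι N g) := by
  classical
  induction a using MonoidAlgebra.induction_linear with
  | zero => simp
  | add a b ha hb => simp only [map_add, coeff_add, Finsupp.add_apply, ha, hb]
  | single g' k =>
    rw [AL_R_single, coeff_single, Finsupp.single_apply]
    by_cases h : g' = g
    · subst h
      rw [if_pos rfl, if_pos rfl, coeff_single, Finsupp.single_eq_same]
    · rw [if_neg h]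
      by_cases h2 : (QuotientGroup.mk g' : G ⧸ N) = QuotientGroup.mk g
      · rw [if_pos h2, coeff_single, Finsupp.single_apply, if_neg]
        intro h3
        apply h
        rw [← AL_fl_spec ι N hN g', ← AL_fl_spec ι N hN g, h3, AL_rep_congr N h2]
      · rw [if_neg h2]
        rfl

/-- Separation on the group algebra of `G` from separation on the free group algebra. -/
theorem AL_sep [N.Normal] (hι : Function.Injective ι) (hN : N = ι.range)
    (ε : MonoidAlgebra K (FreeGroup X) →+ K) (hε : ∀ f k, ε (single f k) = k)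
    (hC : ∀ r, (∀ u : List X, ε (u.foldl (fun acc x => d x acc) r) = 0) → r = 0)
    (a : MonoidAlgebra K G)
    (ha : ∀ u : List X, mapDomainRingHom K (QuotientGroup.mk' N)
      (u.foldl (fun acc x => AL_D ι N d x acc) a) = 0) : a = 0 := by
  have h1 : ∀ (q : G ⧸ N) (u : List X) (b : MonoidAlgebra K G),
      AL_R ι N q (u.foldl (fun acc x => AL_D ι N d x acc) b)
        = u.foldl (fun acc x => d x acc) (AL_R ι N q b) := by
    intro q u
    induction u with
    | nil => intro b; rfl
    | cons x u ih =>
      intro b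
      rw [List.foldl_cons, List.foldl_cons, ih, AL_R_D ι N d hι hN]
  have hR : ∀ q, AL_R ι N q a = 0 := by
    intro q
    apply hC
    intro u
    rw [← h1, AL_eps_R ι N ε hε, ha u]
    rfl
  apply coeff_injective
  ext g
  rw [AL_coeff_eq ι N hN a g, hR]
  rfl

/-- **Left operators.**  From additive operators `d x` on the group algebra of the free group
with the rules of the Fox derivatives (product rule for a group element on the left, values on
the generators, fundamental formula with finite support, separation), operators `D x` on the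
group algebra of `G` with the corresponding rules. -/
theorem AL_exists_left [N.Normal] (hι : Function.Injective ι) (hN : N = ι.range)
    (ε : MonoidAlgebra K (FreeGroup X) →+ K) (hε : ∀ f k, ε (single f k) = k)
    (hd_mul : ∀ x f r, d x (single f 1 * r) = d x (single f 1) * r + d x r)
    (hd_of : ∀ x, d x (single (FreeGroup.of x) 1) = 1)
    (hd_ne : ∀ x y, x ≠ y → d x (single (FreeGroup.of y) 1) = 0)
    (hd_fund : ∀ r, ∃ s : Finset X, (∀ x, x ∉ s → d x r = 0) ∧
      r = single 1 (ε r) + ∑ x ∈ s, (single (FreeGroup.of x) 1 - 1) * d x r)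
    (hC : ∀ r, (∀ u : List X, ε (u.foldl (fun acc x => d x acc) r) = 0) → r = 0) :
    ∃ D : X → MonoidAlgebra K G →+ MonoidAlgebra K G,
      (∀ x c, D x ((single (ι (FreeGroup.of x)) 1 - 1) * c) = c) ∧
      (∀ x y c, x ≠ y → D x ((single (ι (FreeGroup.of y)) 1 - 1) * c) = 0) ∧
      (∀ a, mapDomainRingHom K (QuotientGroup.mk' N) a = 0 →
        ∃ s : Finset X, a = ∑ y ∈ s, (single (ι (FreeGroup.of y)) 1 - 1) * D y a) ∧
      (∀ a, (∀ u : List X,
          mapDomainRingHom K (QuotientGroup.mk' N) (u.foldl (fun acc x => D x acc) a) = 0) →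
        a = 0) := by
  refine ⟨AL_D ι N d, AL_D_w_same ι N d hι hN hd_mul hd_of,
    fun x y c hxy => AL_D_w_ne ι N d hι hN hd_mul hd_ne x y hxy c, ?_,
    AL_sep ι N d hι hN ε hε hC⟩
  intro a ha
  obtain ⟨s, -, hs⟩ := AL_fund ι N d hN ε hε hd_fund a
  rw [AL_mapDomain_rep_eq_zero N a ha, zero_add] at hs
  exact ⟨s, hs⟩

end left

section right

variable {K : Type*} [CommRing K] {X : Type*} {G : Type*} [Group G]
  (ι : FreeGroup X →* G) (N : Subgroup G)

open Classical in
/-- The element `f` of the free group with `rep g * ι f = g` (if there is one). -/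
noncomputable def AL_fr (g : G) : FreeGroup X :=
  if h : ∃ f, ι f = (AL_rep N g)⁻¹ * g then h.choose else 1

theorem AL_fr_spec (hN : N = ι.range) (g : G) :
    AL_rep N g * ι (AL_fr ι N g) = g := by
  have h1 : (AL_rep N g)⁻¹ * g ∈ N := QuotientGroup.eq.mp (AL_mk_rep N g)
  have h2 : (AL_rep N g)⁻¹ * g ∈ ι.range := by
    rw [← hN]
    exact h1
  have h3 : ∃ f, ι f = (AL_rep N g)⁻¹ * g := h2
  unfold AL_fr
  rw [dif_pos h3, h3.choose_spec, mul_inv_cancel_left]

theorem AL_mk_mul_right [N.Normal] (hN : N = ι.range) (f : FreeGroup X) (g : G) :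
    (QuotientGroup.mk (g * ι f) : G ⧸ N) = QuotientGroup.mk g := by
  have h1 : ι f ∈ N := by
    rw [hN]
    exact ⟨f, rfl⟩
  rw [QuotientGroup.mk_mul, (QuotientGroup.eq_one_iff (ι f)).mpr h1, mul_one]

theorem AL_rep_mul_right [N.Normal] (hN : N = ι.range) (f : FreeGroup X) (g : G) :
    AL_rep N (g * ι f) = AL_rep N g :=
  AL_rep_congr N (AL_mk_mul_right ι N hN f g)

theorem AL_fr_mul [N.Normal] (hι : Function.Injective ι) (hN : N = ι.range) (f : FreeGroup X)
    (g : G) : AL_fr ι N (g * ι f) = AL_fr ι N g * f := by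
  apply hι
  have h1 := AL_fr_spec ι N hN (g * ι f)
  rw [AL_rep_mul_right ι N hN] at h1
  have h2 := AL_fr_spec ι N hN g
  rw [map_mul]
  apply mul_left_cancel (a := AL_rep N g)
  rw [h1, ← mul_assoc, h2]

variable (d : X → MonoidAlgebra K (FreeGroup X) →+ MonoidAlgebra K (FreeGroup X))

/-- The right-hand operator `D' x` on the group algebra of `G`. -/
noncomputable def AL_D' (x : X) : MonoidAlgebra K G →+ MonoidAlgebra K G :=
  AL_lift fun g =>
    (AddMonoidHom.mulLeft (single (AL_rep N g) (1 : K))).comp
      ((mapDomainRingHom K ι).toAddMonoidHom.comp ((d x).comp (singleAddHom (AL_fr ι N g))))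

theorem AL_D'_single (x : X) (g : G) (k : K) :
    AL_D' ι N d x (single g k)
      = single (AL_rep N g) 1 * mapDomainRingHom K ι (d x (single (AL_fr ι N g) k)) := by
  unfold AL_D'
  rw [AL_lift_single]
  rfl

theorem AL_single_eq_right (hN : N = ι.range) (g : G) (k : K) :
    single (AL_rep N g) 1 * mapDomainRingHom K ι (single (AL_fr ι N g) k) = single g k := by
  rw [mapDomainRingHom_apply, mapDomain_single, single_mul_single, one_mul, AL_fr_spec ι N hN]

theorem AL_D'_w_single [N.Normal] (hι : Function.Injective ι) (hN : N = ι.range)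
    (hd_mul : ∀ x f r, d x (r * single f 1) = r * d x (single f 1) + d x r)
    (y x : X) (g : G) (k : K) :
    AL_D' ι N d y (single g k * (single (ι (FreeGroup.of x)) 1 - 1))
      = single g k * mapDomainRingHom K ι (d y (single (FreeGroup.of x) 1)) := by
  have h1 : single (AL_fr ι N g * FreeGroup.of x) k
      = single (AL_fr ι N g) k * single (FreeGroup.of x) (1 : K) := by
    rw [single_mul_single, mul_one]
  rw [mul_sub, mul_one, single_mul_single, mul_one, map_sub, AL_D'_single, AL_D'_single,
    AL_rep_mul_right ι N hN, AL_fr_mul ι N hι hN, ← mul_sub, ← map_sub, h1, hd_mul,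
    add_sub_cancel_right, map_mul, ← mul_assoc, AL_single_eq_right ι N hN]

theorem AL_D'_w_same [N.Normal] (hι : Function.Injective ι) (hN : N = ι.range)
    (hd_mul : ∀ x f r, d x (r * single f 1) = r * d x (single f 1) + d x r)
    (hd_of : ∀ x, d x (single (FreeGroup.of x) 1) = 1) (x : X) (c : MonoidAlgebra K G) :
    AL_D' ι N d x (c * (single (ι (FreeGroup.of x)) 1 - 1)) = c := by
  induction c using MonoidAlgebra.induction_linear with
  | zero => rw [zero_mul, map_zero]
  | add a b ha hb => rw [add_mul, map_add, ha, hb]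
  | single g k => rw [AL_D'_w_single ι N d hι hN hd_mul, hd_of, map_one, mul_one]

theorem AL_D'_w_ne [N.Normal] (hι : Function.Injective ι) (hN : N = ι.range)
    (hd_mul : ∀ x f r, d x (r * single f 1) = r * d x (single f 1) + d x r)
    (hd_ne : ∀ x y, x ≠ y → d x (single (FreeGroup.of y) 1) = 0) (x y : X) (hxy : x ≠ y)
    (c : MonoidAlgebra K G) :
    AL_D' ι N d x (c * (single (ι (FreeGroup.of y)) 1 - 1)) = 0 := by
  induction c using MonoidAlgebra.induction_linear with
  | zero => rw [zero_mul, map_zero]
  | add a b ha hb => rw [add_mul, map_add, ha, hb, add_zero]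
  | single g k => rw [AL_D'_w_single ι N d hι hN hd_mul, hd_ne x y hxy, map_zero, mul_zero]

/-- The fundamental formula on the group algebra of `G`, right-hand version. -/
theorem AL_fund_right (hN : N = ι.range)
    (ε : MonoidAlgebra K (FreeGroup X) →+ K) (hε : ∀ f k, ε (single f k) = k)
    (hd_fund : ∀ r, ∃ s : Finset X, (∀ x, x ∉ s → d x r = 0) ∧
      r = single 1 (ε r) + ∑ x ∈ s, d x r * (single (FreeGroup.of x) 1 - 1))
    (a : MonoidAlgebra K G) :
    ∃ s : Finset X, (∀ x, x ∉ s → AL_D' ι N d x a = 0) ∧
      a = mapDomain (AL_rep N) a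
        + ∑ x ∈ s, AL_D' ι N d x a * (single (ι (FreeGroup.of x)) 1 - 1) := by
  classical
  induction a using MonoidAlgebra.induction_linear with
  | zero => exact ⟨∅, fun x _ => map_zero _, by simp⟩
  | add a b ha hb =>
    obtain ⟨s, hs0, hs⟩ := ha
    obtain ⟨t, ht0, ht⟩ := hb
    refine ⟨s ∪ t, ?_, ?_⟩
    · intro x hx
      rw [Finset.mem_union, not_or] at hx
      rw [map_add, hs0 x hx.1, ht0 x hx.2, add_zero]
    · have e1 : ∑ x ∈ s ∪ t, AL_D' ι N d x a * (single (ι (FreeGroup.of x)) 1 - 1)
          = ∑ x ∈ s, AL_D' ι N d x a * (single (ι (FreeGroup.of x)) 1 - 1) := by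
        symm
        apply Finset.sum_subset Finset.subset_union_left
        intro x _ hx
        rw [hs0 x hx, zero_mul]
      have e2 : ∑ x ∈ s ∪ t, AL_D' ι N d x b * (single (ι (FreeGroup.of x)) 1 - 1)
          = ∑ x ∈ t, AL_D' ι N d x b * (single (ι (FreeGroup.of x)) 1 - 1) := by
        symm
        apply Finset.sum_subset Finset.subset_union_right
        intro x _ hx
        rw [ht0 x hx, zero_mul]
      simp only [map_add, add_mul, Finset.sum_add_distrib]
      rw [e1, e2, mapDomain_add]
      calc a + b = (mapDomain (AL_rep N) a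
              + ∑ x ∈ s, AL_D' ι N d x a * (single (ι (FreeGroup.of x)) 1 - 1))
            + (mapDomain (AL_rep N) b
              + ∑ x ∈ t, AL_D' ι N d x b * (single (ι (FreeGroup.of x)) 1 - 1)) := by
            rw [← hs, ← ht]
        _ = _ := by abel
  | single g k =>
    obtain ⟨s, hs0, hs⟩ := hd_fund (single (AL_fr ι N g) k)
    refine ⟨s, ?_, ?_⟩
    · intro x hx
      rw [AL_D'_single, hs0 x hx, map_zero, mul_zero]
    · have h1 : single (AL_rep N g) (1 : K) * mapDomainRingHom K ι (single (AL_fr ι N g) k)
          = single (AL_rep N g) (1 : K)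
            * mapDomainRingHom K ι (single 1 (ε (single (AL_fr ι N g) k))
            + ∑ x ∈ s, d x (single (AL_fr ι N g) k) * (single (FreeGroup.of x) 1 - 1)) := by
        rw [← hs]
      rw [AL_single_eq_right ι N hN, hε, map_add, map_sum, mul_add, Finset.mul_sum] at h1
      refine h1.trans ?_
      rw [mapDomain_single]
      congr 1
      · rw [mapDomainRingHom_apply, mapDomain_single, map_one, single_mul_single, one_mul,
          mul_one]
      · apply Finset.sum_congr rfl
        intro x _
        have hw : mapDomainRingHom K ι (single (FreeGroup.of x) (1 : K))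
            = single (ι (FreeGroup.of x)) 1 := by
          rw [mapDomainRingHom_apply, mapDomain_single]
        rw [AL_D'_single, map_mul, map_sub, map_one, hw, mul_assoc]

/-- **Right operators.**  Mirror image of `AL_exists_left` (without the separation part). -/
theorem AL_exists_right [N.Normal] (hι : Function.Injective ι) (hN : N = ι.range)
    (ε : MonoidAlgebra K (FreeGroup X) →+ K) (hε : ∀ f k, ε (single f k) = k)
    (hd_mul : ∀ x f r, d x (r * single f 1) = r * d x (single f 1) + d x r)
    (hd_of : ∀ x, d x (single (FreeGroup.of x) 1) = 1)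
    (hd_ne : ∀ x y, x ≠ y → d x (single (FreeGroup.of y) 1) = 0)
    (hd_fund : ∀ r, ∃ s : Finset X, (∀ x, x ∉ s → d x r = 0) ∧
      r = single 1 (ε r) + ∑ x ∈ s, d x r * (single (FreeGroup.of x) 1 - 1)) :
    ∃ D : X → MonoidAlgebra K G →+ MonoidAlgebra K G,
      (∀ x c, D x (c * (single (ι (FreeGroup.of x)) 1 - 1)) = c) ∧
      (∀ x y c, x ≠ y → D x (c * (single (ι (FreeGroup.of y)) 1 - 1)) = 0) ∧
      (∀ a, mapDomainRingHom K (QuotientGroup.mk' N) a = 0 →
        ∃ s : Finset X, a = ∑ y ∈ s, D y a * (single (ι (FreeGroup.of y)) 1 - 1)) := by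
  refine ⟨AL_D' ι N d, AL_D'_w_same ι N d hι hN hd_mul hd_of,
    fun x y c hxy => AL_D'_w_ne ι N d hι hN hd_mul hd_ne x y hxy c, ?_⟩
  intro a ha
  obtain ⟨s, -, hs⟩ := AL_fund_right ι N d hN ε hε hd_fund a
  rw [AL_mapDomain_rep_eq_zero N a ha, zero_add] at hs
  exact ⟨s, hs⟩

end right

end Vale.Agent.Lib.P201.H72
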