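import Mathlib

/-!
# P201, free kernel: separation for the Fox derivatives of a free group (Lemma C)

Let `ε` be the augmentation of the group algebra of `FreeGroup X` over a commutative ring `K`
and let `d x` be additive operators on that group algebra which satisfy the product rule of the
Fox derivatives and take the values `1`, `0` on the generators.  `LC_main`: an element `r` for
which `ε` vanishes on all iterated derivatives of `r` is zero.

The proof is by induction on the size of a finite set `S` of group elements which is closed
under passing to suffixes of reduced words and contains the support of `r`.  If `g0` is an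
element of `S` of maximal length and `g0 = x g'` resp. `g0 = x⁻¹ g'` is its reduced form, then
`d x r` resp. `x * d x r` is supported in `S` without `g0` and its coefficient at `g'` is the
coefficient of `r` at `g0` up to sign.
-/

namespace Vale.Agent.Lib.P201.H72

open MonoidAlgebra

section lemmaC

variable {K : Type*} [CommRing K] {X : Type*}
  (ε : MonoidAlgebra K (FreeGroup X) →+ K)
  (d : X → MonoidAlgebra K (FreeGroup X) →+ MonoidAlgebra K (FreeGroup X))

/-- `ε` vanishes on all iterated derivatives of `r`. -/
def LC_I (r : MonoidAlgebra K (FreeGroup X)) : Prop :=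
  ∀ u : List X, ε (u.foldl (fun acc x => d x acc) r) = 0

theorem LC_eps_mul (hε : ∀ f k, ε (single f k) = k) (a b : MonoidAlgebra K (FreeGroup X)) :
    ε (a * b) = ε a * ε b := by
  induction a using MonoidAlgebra.induction_linear with
  | zero => rw [zero_mul, map_zero, zero_mul]
  | add a1 a2 h1 h2 => rw [add_mul, map_add, map_add, h1, h2, add_mul]
  | single f k =>
    induction b using MonoidAlgebra.induction_linear with
    | zero => rw [mul_zero, map_zero, mul_zero]
    | add b1 b2 h1 h2 => rw [mul_add, map_add, map_add, h1, h2, mul_add]
    | single f' k' => rw [single_mul_single, hε, hε, hε]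

theorem LC_I_eps {r : MonoidAlgebra K (FreeGroup X)} (h : LC_I ε d r) : ε r = 0 := h []

theorem LC_I_d {r : MonoidAlgebra K (FreeGroup X)} (h : LC_I ε d r) (x : X) :
    LC_I ε d (d x r) := fun u => h (x :: u)

theorem LC_foldl_add (u : List X) (a b : MonoidAlgebra K (FreeGroup X)) :
    u.foldl (fun acc x => d x acc) (a + b)
      = u.foldl (fun acc x => d x acc) a + u.foldl (fun acc x => d x acc) b := by
  induction u generalizing a b with
  | nil => rfl
  | cons x u ih => rw [List.foldl_cons, List.foldl_cons, List.foldl_cons, map_add, ih]

/-- The elements with `LC_I` form a left ideal. -/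
theorem LC_I_mul (hε : ∀ f k, ε (single f k) = k)
    (hd_mul : ∀ x s r, d x (s * r) = d x s * r + single 1 (ε s) * d x r)
    (s : MonoidAlgebra K (FreeGroup X)) {r : MonoidAlgebra K (FreeGroup X)}
    (h : LC_I ε d r) : LC_I ε d (s * r) := by
  intro u
  induction u generalizing s r with
  | nil =>
    show ε (s * r) = 0
    rw [LC_eps_mul ε hε, LC_I_eps ε d h, mul_zero]
  | cons x u ih =>
    rw [List.foldl_cons, hd_mul, LC_foldl_add, map_add, ih (d x s) h,
      ih (single 1 (ε s)) (LC_I_d ε d h x), add_zero]

theorem LC_d_one (hε : ∀ f k, ε (single f k) = k)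
    (hd_mul : ∀ x s r, d x (s * r) = d x s * r + single 1 (ε s) * d x r) (x : X) :
    d x 1 = 0 := by
  have h := hd_mul x 1 1
  have h1 : ε (1 : MonoidAlgebra K (FreeGroup X)) = 1 := by rw [one_def, hε]
  rw [h1, ← one_def, one_mul, mul_one, one_mul] at h
  exact left_eq_add.mp h

theorem LC_d_inv (hε : ∀ f k, ε (single f k) = k)
    (hd_mul : ∀ x s r, d x (s * r) = d x s * r + single 1 (ε s) * d x r) (x y : X) :
    d x (single (FreeGroup.of y)⁻¹ 1)
      = -(d x (single (FreeGroup.of y) 1)) * single (FreeGroup.of y)⁻¹ 1 := by
  have h := hd_mul x (single (FreeGroup.of y)⁻¹ 1) (single (FreeGroup.of y) 1)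
  rw [single_mul_single, inv_mul_cancel, one_mul, ← one_def, LC_d_one ε d hε hd_mul, hε,
    ← one_def, one_mul] at h
  have h2 : d x (single (FreeGroup.of y)⁻¹ 1) * single (FreeGroup.of y) (1 : K)
      = -(d x (single (FreeGroup.of y) 1)) := by
    rw [eq_neg_iff_add_eq_zero]
    exact h.symm
  have h3 : single (FreeGroup.of y) (1 : K) * single (FreeGroup.of y)⁻¹ (1 : K) = 1 := by
    rw [single_mul_single, mul_inv_cancel, one_mul, one_def]
  rw [← h2, mul_assoc, h3, mul_one]

/-- The derivative of a word in terms of its first letter and the rest. -/
theorem LC_d_cons (hε : ∀ f k, ε (single f k) = k)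
    (hd_mul : ∀ x s r, d x (s * r) = d x s * r + single 1 (ε s) * d x r) (x : X)
    (t : X × Bool) (l : List (X × Bool)) (k : K) :
    d x (single (FreeGroup.mk (t :: l)) k)
      = d x (single (FreeGroup.mk [t]) 1) * single (FreeGroup.mk l) k
        + d x (single (FreeGroup.mk l) k) := by
  have h1 : single (FreeGroup.mk (t :: l)) k
      = single (FreeGroup.mk [t]) (1 : K) * single (FreeGroup.mk l) k := by
    rw [single_mul_single, one_mul, FreeGroup.mul_mk, List.singleton_append]
  rw [h1, hd_mul, hε, ← one_def, one_mul]

variable [DecidableEq X]

theorem LC_letter_true (hd_of : ∀ x, d x (single (FreeGroup.of x) 1) = 1)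
    (hd_ne : ∀ x y, x ≠ y → d x (single (FreeGroup.of y) 1) = 0) (x y : X) :
    d x (single (FreeGroup.mk [(y, true)]) 1) = if x = y then 1 else 0 := by
  have h0 : FreeGroup.mk [(y, true)] = FreeGroup.of y := rfl
  rw [h0]
  split_ifs with h
  · subst h
    exact hd_of x
  · exact hd_ne x y h

theorem LC_letter_false (hε : ∀ f k, ε (single f k) = k)
    (hd_mul : ∀ x s r, d x (s * r) = d x s * r + single 1 (ε s) * d x r)
    (hd_of : ∀ x, d x (single (FreeGroup.of x) 1) = 1)
    (hd_ne : ∀ x y, x ≠ y → d x (single (FreeGroup.of y) 1) = 0) (x y : X) :
    d x (single (FreeGroup.mk [(y, false)]) 1)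
      = if x = y then -single (FreeGroup.mk [(y, false)]) (1 : K) else 0 := by
  have h0 : FreeGroup.mk [(y, false)] = (FreeGroup.of y)⁻¹ := rfl
  rw [h0, LC_d_inv ε d hε hd_mul]
  split_ifs with h
  · subst h
    rw [hd_of, neg_mul, one_mul]
  · rw [hd_ne x y h, neg_zero, zero_mul]

/-- Support of the derivative of a reduced word. -/
theorem LC_supp (hε : ∀ f k, ε (single f k) = k)
    (hd_mul : ∀ x s r, d x (s * r) = d x s * r + single 1 (ε s) * d x r)
    (hd_one : ∀ x k, d x (single 1 k) = 0)
    (hd_of : ∀ x, d x (single (FreeGroup.of x) 1) = 1)
    (hd_ne : ∀ x y, x ≠ y → d x (single (FreeGroup.of y) 1) = 0) (x : X) (k : K) :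
    ∀ l : List (X × Bool), FreeGroup.IsReduced l → ∀ h : FreeGroup X,
      (d x (single (FreeGroup.mk l) k)).coeff h ≠ 0 →
      (∃ p, l = p ++ (x, true) :: h.toWord) ∨
      (∃ p l', l = p ++ (x, false) :: l' ∧ h.toWord = (x, false) :: l') := by
  intro l
  induction l with
  | nil =>
    intro _ h hne
    exfalso
    apply hne
    rw [← FreeGroup.one_eq_mk, hd_one]
    rfl
  | cons t l ih =>
    intro hred h hne
    have hl : FreeGroup.IsReduced l := List.IsChain.suffix hred ⟨[t], by simp⟩
    rw [LC_d_cons ε d hε hd_mul, coeff_add, Finsupp.add_apply] at hne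
    by_cases h2 : (d x (single (FreeGroup.mk l) k)).coeff h = 0
    · rw [h2, add_zero] at hne
      obtain ⟨y, b⟩ := t
      by_cases hxy : x = y
      · subst hxy
        cases b
        · rw [LC_letter_false ε d hε hd_mul hd_of hd_ne, if_pos rfl, neg_mul, single_mul_single,
            one_mul, FreeGroup.mul_mk, List.singleton_append, coeff_neg, Finsupp.neg_apply,
            neg_ne_zero, coeff_single, Finsupp.single_apply] at hne
          have hh : FreeGroup.mk ((x, false) :: l) = h := by
            by_contra hc
            exact hne (if_neg hc)
          right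
          refine ⟨[], l, rfl, ?_⟩
          rw [← hh, FreeGroup.toWord_mk, hred.reduce_eq]
        · rw [LC_letter_true d hd_of hd_ne, if_pos rfl, one_mul, coeff_single,
            Finsupp.single_apply] at hne
          have hh : FreeGroup.mk l = h := by
            by_contra hc
            exact hne (if_neg hc)
          left
          refine ⟨[], ?_⟩
          rw [← hh, FreeGroup.toWord_mk, hl.reduce_eq]
          rfl
      · exfalso
        apply hne
        cases b
        · rw [LC_letter_false ε d hε hd_mul hd_of hd_ne, if_neg hxy, zero_mul]
          rfl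
        · rw [LC_letter_true d hd_of hd_ne, if_neg hxy, zero_mul]
          rfl
    · rcases ih hl h h2 with ⟨p, hp⟩ | ⟨p, l', hp, hh⟩
      · left
        exact ⟨t :: p, by rw [hp]; rfl⟩
      · right
        exact ⟨t :: p, l', by rw [hp]; rfl, hh⟩

theorem LC_coeff_pos (hε : ∀ f k, ε (single f k) = k)
    (hd_mul : ∀ x s r, d x (s * r) = d x s * r + single 1 (ε s) * d x r)
    (hd_one : ∀ x k, d x (single 1 k) = 0)
    (hd_of : ∀ x, d x (single (FreeGroup.of x) 1) = 1)
    (hd_ne : ∀ x y, x ≠ y → d x (single (FreeGroup.of y) 1) = 0) (x : X) (k : K)
    (l0 : List (X × Bool)) (hred : FreeGroup.IsReduced ((x, true) :: l0)) :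
    (d x (single (FreeGroup.mk ((x, true) :: l0)) k)).coeff (FreeGroup.mk l0) = k := by
  have hl : FreeGroup.IsReduced l0 := List.IsChain.suffix hred ⟨[(x, true)], by simp⟩
  have h0 : (d x (single (FreeGroup.mk l0) k)).coeff (FreeGroup.mk l0) = 0 := by
    by_contra hne
    rcases LC_supp ε d hε hd_mul hd_one hd_of hd_ne x k l0 hl _ hne with ⟨p, hp⟩ | ⟨p, l', hp, hh⟩
    · rw [FreeGroup.toWord_mk, hl.reduce_eq] at hp
      have := congrArg List.length hp
      simp at this
      omega
    · rw [FreeGroup.toWord_mk, hl.reduce_eq] at hh
      rw [hh, FreeGroup.isReduced_cons_cons] at hred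
      exact absurd (hred.1 rfl) (by simp)
  rw [LC_d_cons ε d hε hd_mul, LC_letter_true d hd_of hd_ne, if_pos rfl, one_mul, coeff_add,
    Finsupp.add_apply, coeff_single, Finsupp.single_eq_same, h0, add_zero]

theorem LC_coeff_neg (hε : ∀ f k, ε (single f k) = k)
    (hd_mul : ∀ x s r, d x (s * r) = d x s * r + single 1 (ε s) * d x r)
    (hd_one : ∀ x k, d x (single 1 k) = 0)
    (hd_of : ∀ x, d x (single (FreeGroup.of x) 1) = 1)
    (hd_ne : ∀ x y, x ≠ y → d x (single (FreeGroup.of y) 1) = 0) (x : X) (k : K)
    (l0 : List (X × Bool)) (hred : FreeGroup.IsReduced ((x, false) :: l0)) :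
    (d x (single (FreeGroup.mk ((x, false) :: l0)) k)).coeff (FreeGroup.mk ((x, false) :: l0))
      = -k := by
  have hl : FreeGroup.IsReduced l0 := List.IsChain.suffix hred ⟨[(x, false)], by simp⟩
  have h0 : (d x (single (FreeGroup.mk l0) k)).coeff (FreeGroup.mk ((x, false) :: l0)) = 0 := by
    by_contra hne
    rcases LC_supp ε d hε hd_mul hd_one hd_of hd_ne x k l0 hl _ hne with ⟨p, hp⟩ | ⟨p, l', hp, hh⟩
    · rw [FreeGroup.toWord_mk, hred.reduce_eq] at hp
      have := congrArg List.length hp
      simp at this
      omega
    · rw [FreeGroup.toWord_mk, hred.reduce_eq] at hh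
      have hl' : l0 = l' := by simpa using hh
      rw [← hl'] at hp
      have := congrArg List.length hp
      simp at this
      omega
  rw [LC_d_cons ε d hε hd_mul, LC_letter_false ε d hε hd_mul hd_of hd_ne, if_pos rfl, neg_mul,
    single_mul_single, one_mul, FreeGroup.mul_mk, List.singleton_append, coeff_add,
    Finsupp.add_apply, coeff_neg, Finsupp.neg_apply, coeff_single, Finsupp.single_eq_same, h0,
    add_zero]

omit [DecidableEq X] in
theorem LC_coeff_sum (x : X) (r : MonoidAlgebra K (FreeGroup X)) (h : FreeGroup X) :
    (d x r).coeff h = ∑ g ∈ r.coeff.support, (d x (single g (r.coeff g))).coeff h := by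
  have hr : r = ∑ g ∈ r.coeff.support, single g (r.coeff g) := (sum_coeff_single r).symm
  calc (d x r).coeff h = (d x (∑ g ∈ r.coeff.support, single g (r.coeff g))).coeff h := by
        rw [← hr]
    _ = ∑ g ∈ r.coeff.support, (d x (single g (r.coeff g))).coeff h := by
        rw [map_sum, coeff_sum, Finsupp.finsetSum_apply]

/-- A finite set of group elements closed under suffixes of reduced words. -/
def LC_SC (S : Finset (FreeGroup X)) : Prop :=
  ∀ g ∈ S, ∀ (t : X × Bool) (l : List (X × Bool)), g.toWord = t :: l → FreeGroup.mk l ∈ S

theorem LC_SC_suffix {S : Finset (FreeGroup X)} (hS : LC_SC S) :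
    ∀ (p l : List (X × Bool)) (g : FreeGroup X), g ∈ S → g.toWord = p ++ l →
      FreeGroup.mk l ∈ S := by
  intro p
  induction p with
  | nil =>
    intro l g hg h
    rw [List.nil_append] at h
    rw [← h, FreeGroup.mk_toWord]
    exact hg
  | cons t p ih =>
    intro l g hg h
    have h1 : FreeGroup.mk (p ++ l) ∈ S := hS g hg t (p ++ l) h
    have hred : FreeGroup.IsReduced (p ++ l) := by
      have := FreeGroup.isReduced_toWord (x := g)
      rw [h] at this
      exact List.IsChain.suffix this ⟨[t], by simp⟩
    exact ih l _ h1 (by rw [FreeGroup.toWord_mk, hred.reduce_eq])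

theorem LC_aux (hε : ∀ f k, ε (single f k) = k)
    (hd_mul : ∀ x s r, d x (s * r) = d x s * r + single 1 (ε s) * d x r)
    (hd_one : ∀ x k, d x (single 1 k) = 0)
    (hd_of : ∀ x, d x (single (FreeGroup.of x) 1) = 1)
    (hd_ne : ∀ x y, x ≠ y → d x (single (FreeGroup.of y) 1) = 0) :
    ∀ (n : ℕ) (S : Finset (FreeGroup X)), S.card = n → LC_SC S →
      ∀ r : MonoidAlgebra K (FreeGroup X), (∀ g, r.coeff g ≠ 0 → g ∈ S) → LC_I ε d r →
        r = 0 := by
  intro n
  induction n with
  | zero =>
    intro S hS _ r hr _
    rw [Finset.card_eq_zero] at hS
    subst hS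
    apply coeff_injective
    ext g
    by_contra hne
    exact absurd (hr g hne) (Finset.notMem_empty g)
  | succ n ih =>
    intro S hcard hSC r hr hI
    have hne : S.Nonempty := by
      rw [← Finset.card_pos, hcard]
      omega
    obtain ⟨g0, hg0, hmax⟩ := Finset.exists_max_image S (fun g => g.toWord.length) hne
    have hSC' : LC_SC (S.erase g0) := by
      intro g hg t l hgl
      rw [Finset.mem_erase] at hg ⊢
      refine ⟨?_, hSC g hg.2 t l hgl⟩
      intro heq
      have hred : FreeGroup.IsReduced l := by
        have := FreeGroup.isReduced_toWord (x := g)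
        rw [hgl] at this
        exact List.IsChain.suffix this ⟨[t], by simp⟩
      have h1 := hmax g hg.2
      rw [← heq] at h1
      simp only [FreeGroup.toWord_mk, hred.reduce_eq, hgl, List.length_cons] at h1
      omega
    have hcard' : (S.erase g0).card = n := by
      rw [Finset.card_erase_of_mem hg0, hcard]
      rfl
    have key : r.coeff g0 = 0 := by
      by_contra hr0
      rcases hw : g0.toWord with _ | ⟨t, l0⟩
      · -- `g0 = 1` and `S = {1}`
        have hg1 : g0 = 1 := FreeGroup.toWord_eq_nil_iff.mp hw
        have hr1 : r = single 1 (r.coeff 1) := by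
          apply coeff_injective
          ext g
          rw [coeff_single, Finsupp.single_apply]
          by_cases hg : 1 = g
          · rw [if_pos hg, hg]
          · rw [if_neg hg]
            by_contra hne2
            have h1 := hmax g (hr g hne2)
            simp only [hw, List.length_nil, Nat.le_zero_eq, List.length_eq_zero_iff] at h1
            exact hg (FreeGroup.toWord_eq_nil_iff.mp h1).symm
        have h2 := LC_I_eps ε d hI
        rw [hr1, hε] at h2
        rw [hg1] at hr0
        exact hr0 h2
      · have hred0 : FreeGroup.IsReduced (t :: l0) := by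
          rw [← hw]
          exact FreeGroup.isReduced_toWord
        have hl0 : FreeGroup.IsReduced l0 := List.IsChain.suffix hred0 ⟨[t], by simp⟩
        have hg0eq : g0 = FreeGroup.mk (t :: l0) := by rw [← hw, FreeGroup.mk_toWord]
        have hlen : ∀ g ∈ S, g.toWord.length ≤ l0.length + 1 := by
          intro g hg
          have := hmax g hg
          simp only [hw, List.length_cons] at this
          exact this
        obtain ⟨x, b⟩ := t
        cases b
        · -- negative first letter
          have hI1 : LC_I ε d (single (FreeGroup.of x) 1 * d x r) :=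
            LC_I_mul ε d hε hd_mul _ (LC_I_d ε d hI x)
          have hc1 : ∀ h, (single (FreeGroup.of x) (1 : K) * d x r).coeff h
              = (d x r).coeff ((FreeGroup.of x)⁻¹ * h) := by
            intro h
            rw [coeff_single_mul_apply, one_mul]
          have hsupp : ∀ h, (single (FreeGroup.of x) (1 : K) * d x r).coeff h ≠ 0 →
              h ∈ S.erase g0 := by
            intro h hh
            rw [hc1, LC_coeff_sum] at hh
            obtain ⟨g, hg, hgh⟩ := Finset.exists_ne_zero_of_sum_ne_zero hh
            have hgS : g ∈ S := hr g (Finsupp.mem_support_iff.mp hg)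
            have hgred : FreeGroup.IsReduced g.toWord := FreeGroup.isReduced_toWord
            have hgh' : (d x (single (FreeGroup.mk g.toWord) (r.coeff g))).coeff
                ((FreeGroup.of x)⁻¹ * h) ≠ 0 := by
              rw [FreeGroup.mk_toWord]
              exact hgh
            rcases LC_supp ε d hε hd_mul hd_one hd_of hd_ne x _ g.toWord hgred _ hgh' with
              ⟨p, hp⟩ | ⟨p, l', hp, hh'⟩
            · have hredh : FreeGroup.IsReduced ((x, true) :: ((FreeGroup.of x)⁻¹ * h).toWord) := by
                rw [hp] at hgred
                exact List.IsChain.suffix hgred ⟨p, by simp⟩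
              have h1 : FreeGroup.mk ((x, true) :: ((FreeGroup.of x)⁻¹ * h).toWord) ∈ S :=
                LC_SC_suffix hSC p _ g hgS hp
              have h2 : FreeGroup.mk ((x, true) :: ((FreeGroup.of x)⁻¹ * h).toWord) = h := by
                have e : FreeGroup.mk ((x, true) :: ((FreeGroup.of x)⁻¹ * h).toWord)
                    = FreeGroup.mk [(x, true)]
                      * FreeGroup.mk (((FreeGroup.of x)⁻¹ * h).toWord) := by
                  rw [FreeGroup.mul_mk, List.singleton_append]
                rw [e, FreeGroup.mk_toWord]
                exact mul_inv_cancel_left _ _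
              have h3 : h.toWord = (x, true) :: ((FreeGroup.of x)⁻¹ * h).toWord := by
                have := congrArg FreeGroup.toWord h2
                rw [FreeGroup.toWord_mk, hredh.reduce_eq] at this
                exact this.symm
              rw [h2] at h1
              rw [Finset.mem_erase]
              refine ⟨?_, h1⟩
              intro heq
              rw [heq, hw] at h3
              simp at h3
            · have e2 : FreeGroup.mk ((x, false) :: l')
                  = (FreeGroup.of x)⁻¹ * FreeGroup.mk l' := by
                show _ = FreeGroup.mk [(x, false)] * _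
                rw [FreeGroup.mul_mk, List.singleton_append]
              have h2 : h = FreeGroup.mk l' := by
                have e : (FreeGroup.of x)⁻¹ * h = FreeGroup.mk ((x, false) :: l') := by
                  rw [← hh', FreeGroup.mk_toWord]
                rw [e2] at e
                exact mul_left_cancel e
              have h1 : FreeGroup.mk l' ∈ S :=
                LC_SC_suffix hSC (p ++ [(x, false)]) l' g hgS (by rw [hp]; simp)
              have hredl' : FreeGroup.IsReduced l' := by
                rw [hp] at hgred
                exact List.IsChain.suffix hgred ⟨p ++ [(x, false)], by simp⟩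
              rw [← h2] at h1
              rw [Finset.mem_erase]
              refine ⟨?_, h1⟩
              intro heq
              have h4 : l' = g0.toWord := by
                rw [← heq, h2, FreeGroup.toWord_mk, hredl'.reduce_eq]
              have h3 := hlen g hgS
              rw [hp, h4, hw] at h3
              simp at h3
              omega
          have hcoef : (single (FreeGroup.of x) (1 : K) * d x r).coeff (FreeGroup.mk l0)
              = -r.coeff g0 := by
            have e0 : (FreeGroup.of x)⁻¹ * FreeGroup.mk l0 = g0 := by
              rw [hg0eq]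
              show FreeGroup.mk [(x, false)] * FreeGroup.mk l0 = _
              rw [FreeGroup.mul_mk, List.singleton_append]
            rw [hc1, e0, LC_coeff_sum, Finset.sum_eq_single g0]
            · have := LC_coeff_neg ε d hε hd_mul hd_one hd_of hd_ne x (r.coeff g0) l0 hred0
              rw [← hg0eq] at this
              exact this
            · intro g hg hgne
              by_contra hc
              have hgS : g ∈ S := hr g (Finsupp.mem_support_iff.mp hg)
              have hgred : FreeGroup.IsReduced g.toWord := FreeGroup.isReduced_toWord
              have hc' : (d x (single (FreeGroup.mk g.toWord) (r.coeff g))).coeff g0 ≠ 0 := by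
                rw [FreeGroup.mk_toWord]
                exact hc
              rcases LC_supp ε d hε hd_mul hd_one hd_of hd_ne x _ g.toWord hgred _ hc' with
                ⟨p, hp⟩ | ⟨p, l', hp, hh'⟩
              · have h3 := hlen g hgS
                rw [hp, hw] at h3
                simp at h3
                omega
              · rw [hw] at hh'
                have hl' : l0 = l' := by simpa using hh'
                have h3 := hlen g hgS
                rw [hp, ← hl'] at h3
                have hp0 : p = [] := by
                  simp at h3
                  exact h3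
                rw [hp0, List.nil_append, ← hl', ← hw] at hp
                exact hgne (FreeGroup.toWord_injective hp)
            · intro hnot
              rw [Finsupp.mem_support_iff, not_not] at hnot
              exact absurd hnot hr0
          have hz := ih (S.erase g0) hcard' hSC' _ hsupp hI1
          rw [hz] at hcoef
          exact hr0 (neg_eq_zero.mp hcoef.symm)
        · -- positive first letter
          have hI1 : LC_I ε d (d x r) := LC_I_d ε d hI x
          have hsupp : ∀ h, (d x r).coeff h ≠ 0 → h ∈ S.erase g0 := by
            intro h hh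
            rw [LC_coeff_sum] at hh
            obtain ⟨g, hg, hgh⟩ := Finset.exists_ne_zero_of_sum_ne_zero hh
            have hgS : g ∈ S := hr g (Finsupp.mem_support_iff.mp hg)
            have hgred : FreeGroup.IsReduced g.toWord := FreeGroup.isReduced_toWord
            have hgh' : (d x (single (FreeGroup.mk g.toWord) (r.coeff g))).coeff h ≠ 0 := by
              rw [FreeGroup.mk_toWord]
              exact hgh
            rcases LC_supp ε d hε hd_mul hd_one hd_of hd_ne x _ g.toWord hgred _ hgh' with
              ⟨p, hp⟩ | ⟨p, l', hp, hh'⟩
            · have hredh : FreeGroup.IsReduced ((x, true) :: h.toWord) := by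
                rw [hp] at hgred
                exact List.IsChain.suffix hgred ⟨p, by simp⟩
              have h1 : FreeGroup.mk ((x, true) :: h.toWord) ∈ S :=
                LC_SC_suffix hSC p _ g hgS hp
              have h2 : FreeGroup.mk h.toWord ∈ S :=
                hSC _ h1 (x, true) h.toWord (by rw [FreeGroup.toWord_mk, hredh.reduce_eq])
              rw [FreeGroup.mk_toWord] at h2
              rw [Finset.mem_erase]
              refine ⟨?_, h2⟩
              intro heq
              have h3 := hlen g hgS
              rw [hp, heq, hw] at h3
              simp at h3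
              omega
            · have h1 : FreeGroup.mk ((x, false) :: l') ∈ S :=
                LC_SC_suffix hSC p _ g hgS hp
              rw [← hh', FreeGroup.mk_toWord] at h1
              rw [Finset.mem_erase]
              refine ⟨?_, h1⟩
              intro heq
              rw [heq, hw] at hh'
              simp at hh'
          have hcoef : (d x r).coeff (FreeGroup.mk l0) = r.coeff g0 := by
            rw [LC_coeff_sum, Finset.sum_eq_single g0]
            · have := LC_coeff_pos ε d hε hd_mul hd_one hd_of hd_ne x (r.coeff g0) l0 hred0
              rw [← hg0eq] at this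
              exact this
            · intro g hg hgne
              by_contra hc
              have hgS : g ∈ S := hr g (Finsupp.mem_support_iff.mp hg)
              have hgred : FreeGroup.IsReduced g.toWord := FreeGroup.isReduced_toWord
              have hc' : (d x (single (FreeGroup.mk g.toWord) (r.coeff g))).coeff
                  (FreeGroup.mk l0) ≠ 0 := by
                rw [FreeGroup.mk_toWord]
                exact hc
              rcases LC_supp ε d hε hd_mul hd_one hd_of hd_ne x _ g.toWord hgred _ hc' with
                ⟨p, hp⟩ | ⟨p, l', hp, hh'⟩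
              · rw [FreeGroup.toWord_mk, hl0.reduce_eq] at hp
                have h3 := hlen g hgS
                rw [hp] at h3
                have hp0 : p = [] := by
                  simp at h3
                  exact h3
                rw [hp0, List.nil_append, ← hw] at hp
                exact hgne (FreeGroup.toWord_injective hp)
              · rw [FreeGroup.toWord_mk, hl0.reduce_eq] at hh'
                rw [hh', FreeGroup.isReduced_cons_cons] at hred0
                exact absurd (hred0.1 rfl) (by simp)
            · intro hnot
              rw [Finsupp.mem_support_iff, not_not] at hnot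
              exact absurd hnot hr0
          have hz := ih (S.erase g0) hcard' hSC' _ hsupp hI1
          rw [hz] at hcoef
          exact hr0 hcoef.symm
    apply ih (S.erase g0) hcard' hSC' r _ hI
    intro g hg
    rw [Finset.mem_erase]
    refine ⟨?_, hr g hg⟩
    intro heq
    rw [heq] at hg
    exact hg key

end lemmaC

/-- **Lemma C (separation).**  Let `ε` be the augmentation of the group algebra of a free group
and `d x` additive operators with the product rule of the Fox derivatives, vanishing on the
constants, with `d x x = 1` and `d x y = 0` for generators `y ≠ x`.  If `ε` vanishes on all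
iterated derivatives of `r`, then `r = 0`. -/
theorem LC_main {K : Type*} [CommRing K] {X : Type*}
    (ε : MonoidAlgebra K (FreeGroup X) →+ K)
    (d : X → MonoidAlgebra K (FreeGroup X) →+ MonoidAlgebra K (FreeGroup X))
    (hε : ∀ f k, ε (single f k) = k)
    (hd_mul : ∀ x s r, d x (s * r) = d x s * r + single 1 (ε s) * d x r)
    (hd_one : ∀ x k, d x (single 1 k) = 0)
    (hd_of : ∀ x, d x (single (FreeGroup.of x) 1) = 1)
    (hd_ne : ∀ x y, x ≠ y → d x (single (FreeGroup.of y) 1) = 0)
    (r : MonoidAlgebra K (FreeGroup X))
    (hI : ∀ u : List X, ε (u.foldl (fun acc x => d x acc) r) = 0) : r = 0 := by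
  classical
  have hmem : ∀ h, h ∈ r.coeff.support.biUnion
      (fun g => (g.toWord.tails.map FreeGroup.mk).toFinset) ↔
      ∃ g ∈ r.coeff.support, ∃ l, l <:+ g.toWord ∧ FreeGroup.mk l = h := by
    intro h
    simp only [Finset.mem_biUnion, List.mem_toFinset, List.mem_map, List.mem_tails]
  apply LC_aux ε d hε hd_mul hd_one hd_of hd_ne _ (r.coeff.support.biUnion
    (fun g => (g.toWord.tails.map FreeGroup.mk).toFinset)) rfl ?_ r ?_ hI
  · intro h hh t l hhl
    rw [hmem] at hh ⊢
    obtain ⟨g, hg, l'', hsuf, rfl⟩ := hh
    have hred : FreeGroup.IsReduced l'' :=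
      List.IsChain.suffix (FreeGroup.isReduced_toWord (x := g)) hsuf
    rw [FreeGroup.toWord_mk, hred.reduce_eq] at hhl
    refine ⟨g, hg, l, ?_, rfl⟩
    rw [hhl] at hsuf
    exact (List.suffix_cons t l).trans hsuf
  · intro g hg
    rw [hmem]
    exact ⟨g, Finsupp.mem_support_iff.mpr hg, g.toWord, List.suffix_refl _,
      FreeGroup.mk_toWord⟩

end Vale.Agent.Lib.P201.H72
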