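import Mathlib

/-!
# P201: the element `z - 1` of a group algebra, `z` of infinite order

For `z : G` of infinite order and `w = z - 1` in the group algebra `K[G]`:

* `w_mul_eq_zero`: `w * y = 0` implies `y = 0` (`w` is left regular);
* `pow_w_mul_eq_zero`: the same for `w ^ m`;
* `inter_pow_eq_zero`: an element that is a left multiple of `w ^ m` for every `m` is zero.

The proofs look at the coefficients along one coset `{z ^ k * g}`: multiplication by `w` is the
difference operator `f ↦ f (k - 1) - f k` there.
-/

namespace Vale.Agent.Lib.P201.H72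

open MonoidAlgebra

/-- Difference operator on finitely supported functions on `ℤ`: if `k ↦ f (k - 1) - f k`
vanishes outside `[a, b]`, then `f` vanishes outside `[a, b - 1]`. -/
theorem diff_support {K : Type*} [AddGroup K] (f : ℤ → K) (hf : {k : ℤ | f k ≠ 0}.Finite)
    (a b : ℤ) (hD : ∀ k, f (k - 1) - f k ≠ 0 → a ≤ k ∧ k ≤ b) :
    ∀ k, f k ≠ 0 → a ≤ k ∧ k ≤ b - 1 := by
  intro k hk
  constructor
  · by_contra hlt
    have hconst : ∀ j : ℕ, f (k - j) = f k := by
      intro j
      induction j with
      | zero => simp
      | succ j ih =>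
        have h0 : f (k - j - 1) - f (k - j) = 0 := by
          by_contra hne
          have := (hD (k - j) hne).1
          omega
        have e : k - ((j + 1 : ℕ) : ℤ) = k - j - 1 := by push_cast; ring
        rw [e, sub_eq_zero.mp h0, ih]
    have hi : Function.Injective (fun j : ℕ => k - (j : ℤ)) := by
      intro i j hij
      have : k - (i : ℤ) = k - (j : ℤ) := hij
      omega
    exact Set.infinite_of_injective_forall_mem hi (fun j => by
      show f (k - (j : ℤ)) ≠ 0
      rw [hconst j]
      exact hk) hf
  · by_contra hlt
    have hconst : ∀ j : ℕ, f (k + j) = f k := by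
      intro j
      induction j with
      | zero => simp
      | succ j ih =>
        have h0 : f (k + j + 1 - 1) - f (k + j + 1) = 0 := by
          by_contra hne
          have := (hD (k + j + 1) hne).2
          omega
        have e : k + ((j + 1 : ℕ) : ℤ) = k + j + 1 := by push_cast; ring
        have e' : k + (j : ℤ) + 1 - 1 = k + j := by ring
        rw [e'] at h0
        rw [e, ← sub_eq_zero.mp h0, ih]
    have hi : Function.Injective (fun j : ℕ => k + (j : ℤ)) := by
      intro i j hij
      have : k + (i : ℤ) = k + (j : ℤ) := hij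
      omega
    exact Set.infinite_of_injective_forall_mem hi (fun j => by
      show f (k + (j : ℤ)) ≠ 0
      rw [hconst j]
      exact hk) hf

variable {K G : Type*} [Ring K] [Group G]

/-- Coefficients of the product of `z - 1` and `y`. -/
theorem coeff_w_mul (z : G) (y : MonoidAlgebra K G) (h : G) :
    ((single z (1 : K) - 1) * y).coeff h = y.coeff (z⁻¹ * h) - y.coeff h := by
  rw [sub_mul, one_mul, coeff_sub, Finsupp.sub_apply, coeff_single_mul_apply, one_mul]

theorem inv_mul_zpow_mul (z g : G) (k : ℤ) : z⁻¹ * (z ^ k * g) = z ^ (k - 1) * g := by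
  rw [← mul_assoc, ← zpow_neg_one, ← zpow_add]
  congr 2
  ring

/-- Coefficients of the product of `z - 1` and `y` along the coset of `g`. -/
theorem coeff_w_mul_coset (z : G) (y : MonoidAlgebra K G) (g : G) (k : ℤ) :
    ((single z (1 : K) - 1) * y).coeff (z ^ k * g)
      = y.coeff (z ^ (k - 1) * g) - y.coeff (z ^ k * g) := by
  rw [coeff_w_mul, inv_mul_zpow_mul]

/-- Along a coset of the powers of an element of infinite order, an element of the group
algebra has only finitely many nonzero coefficients. -/
theorem coset_support_finite {z : G} (hz : ¬ IsOfFinOrder z) (y : MonoidAlgebra K G) (g : G) :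
    {k : ℤ | y.coeff (z ^ k * g) ≠ 0}.Finite := by
  have hinj : Function.Injective (fun k : ℤ => z ^ k * g) := by
    intro a b hab
    exact (injective_zpow_iff_not_isOfFinOrder.mpr hz) (mul_right_cancel hab)
  have hset : {k : ℤ | y.coeff (z ^ k * g) ≠ 0}
      = (fun k : ℤ => z ^ k * g) ⁻¹' (y.coeff.support : Set G) := by
    ext k
    simp [Finsupp.mem_support_iff]
  rw [hset]
  exact Set.Finite.preimage hinj.injOn y.coeff.support.finite_toSet

/-- If the product of the `m`-th power of `z - 1` and `y` vanishes outside `[a, b]` along the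
coset of `g`, then `y` vanishes outside `[a, b - m]` along that coset. -/
theorem pow_support {z : G} (hz : ¬ IsOfFinOrder z) (g : G) (a b : ℤ) :
    ∀ (m : ℕ) (y : MonoidAlgebra K G),
      (∀ k : ℤ, ((single z (1 : K) - 1) ^ m * y).coeff (z ^ k * g) ≠ 0 → a ≤ k ∧ k ≤ b) →
      ∀ k : ℤ, y.coeff (z ^ k * g) ≠ 0 → a ≤ k ∧ k ≤ b - m := by
  intro m
  induction m with
  | zero =>
    intro y h k hk
    have := h k (by rwa [pow_zero, one_mul])
    simpa using this
  | succ m ih =>
    intro y h k hk
    have h1 : ∀ k : ℤ, ((single z (1 : K) - 1) * y).coeff (z ^ k * g) ≠ 0 →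
        a ≤ k ∧ k ≤ b - m := by
      apply ih ((single z (1 : K) - 1) * y)
      intro k hk
      apply h k
      rwa [pow_succ, mul_assoc]
    have h2 := diff_support (fun k : ℤ => y.coeff (z ^ k * g)) (coset_support_finite hz y g)
      a (b - m) (by
        intro k hk
        apply h1 k
        rw [coeff_w_mul_coset]
        exact hk) k hk
    push_cast
    omega

/-- `z - 1` is left regular in the group algebra when `z` has infinite order. -/
theorem w_mul_eq_zero {z : G} (hz : ¬ IsOfFinOrder z) (y : MonoidAlgebra K G)
    (h : (single z (1 : K) - 1) * y = 0) : y = 0 := by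
  apply coeff_injective
  ext g
  by_contra hne
  have h2 := diff_support (fun k : ℤ => y.coeff (z ^ k * g)) (coset_support_finite hz y g)
    1 0 (by
      intro k hk
      exfalso
      apply hk
      have := coeff_w_mul_coset z y g k
      rw [h] at this
      exact this.symm) 0 (by
        show y.coeff (z ^ (0 : ℤ) * g) ≠ 0
        rw [zpow_zero, one_mul]
        exact hne)
  omega

/-- The `m`-th power of `z - 1` is left regular in the group algebra when `z` has infinite
order. -/
theorem pow_w_mul_eq_zero {z : G} (hz : ¬ IsOfFinOrder z) (m : ℕ) (y : MonoidAlgebra K G)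
    (h : (single z (1 : K) - 1) ^ m * y = 0) : y = 0 := by
  induction m generalizing y with
  | zero => rwa [pow_zero, one_mul] at h
  | succ m ih =>
    rw [pow_succ, mul_assoc] at h
    exact w_mul_eq_zero hz y (ih _ h)

/-- The intersection of the right ideals generated by the `m`-th powers of `z - 1` is zero
when `z` has infinite order. -/
theorem inter_pow_eq_zero {z : G} (hz : ¬ IsOfFinOrder z) (x : MonoidAlgebra K G)
    (hx : ∀ m : ℕ, ∃ y : MonoidAlgebra K G, x = (single z (1 : K) - 1) ^ m * y) : x = 0 := by
  apply coeff_injective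
  ext g
  by_contra hne
  have hfin := coset_support_finite hz x g
  obtain ⟨B, hB⟩ : ∃ B : ℕ, ∀ k : ℤ, x.coeff (z ^ k * g) ≠ 0 → -(B : ℤ) ≤ k ∧ k ≤ B := by
    refine ⟨hfin.toFinset.sup Int.natAbs, ?_⟩
    intro k hk
    have : k.natAbs ≤ hfin.toFinset.sup Int.natAbs :=
      Finset.le_sup (f := Int.natAbs) (by simpa using hk)
    omega
  obtain ⟨y, hy⟩ := hx (2 * B + 1)
  have hsupp := pow_support hz g (-(B : ℤ)) B (2 * B + 1) y (by rw [← hy]; exact hB)
  have hy0 : ∀ k : ℤ, y.coeff (z ^ k * g) = 0 := by
    intro k
    by_contra hk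
    have := hsupp k hk
    push_cast at this
    omega
  have hz0 : ∀ (m : ℕ) (k : ℤ), ((single z (1 : K) - 1) ^ m * y).coeff (z ^ k * g) = 0 := by
    intro m
    induction m with
    | zero =>
      intro k
      rw [pow_zero, one_mul]
      exact hy0 k
    | succ m ih =>
      intro k
      rw [pow_succ', mul_assoc, coeff_w_mul_coset, ih, ih, sub_zero]
  apply hne
  have := hz0 (2 * B + 1) 0
  rw [← hy, zpow_zero, one_mul] at this
  exact this

end Vale.Agent.Lib.P201.H72
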